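import Vale.Agent.P241.H241.Lin
import Vale.Agent.P241.H585.Api

/-!
# P241, LIN for `G`-spaces

* `EMap X Y` : equivariant maps `X⁺ → Y⁺` of `G`-spaces; `EMap.fix V`.
* `glin c` : for a list `c` of pairs of a sign and an equivariant map, the equivariant map
  `(X × ℝ)⁺ → (Y × ℝ)⁺` of `lin`.
* `fixXt_glin` : the fixed points of `glin c` are `lin` of the fixed points.
-/

open CategoryTheory MonoidalCategory Limits OnePoint Topology
open Vale.Agent.P251.G Vale.Agent.P251.G.LC Vale.Agent.P251.St Vale.Agent.P241.St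

noncomputable section

namespace Vale.Agent.P241.H241

open Vale.Agent.P241.Geo

section LCnat

variable {X Y X' Y' : LC}

/-- Naturality of `lin`. -/
theorem lin_comp_whiskerRight (α : X ⟶ X') (β : Y ⟶ Y') (c : List (Bool × (X ⟶ Y)))
    (c' : List (Bool × (X' ⟶ Y')))
    (h : List.Forall₂ (fun u v => u.1 = v.1 ∧ u.2 ≫ β = α ≫ v.2) c c') :
    lin c ≫ β ▷ RR = α ▷ RR ≫ lin c' := by
  apply tensor_ext
  intro x s
  have h' : List.Forall₂ (fun u v => u.1 = v.1 ∧ ∀ x, app β (app u.2 x) = app v.2 (app α x))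
      c c' := h.imp fun u v huv => ⟨huv.1, fun x => by rw [← app_comp, ← app_comp, huv.2]⟩
  obtain ⟨y, t, h1, h2⟩ := lin_natural (app α) (app β) c c' h' (x : OnePoint X) (s : OnePoint ℝ)
  rw [app_comp, app_comp, app_whiskerRight_smash, h1, h2, app_whiskerRight_smash]

theorem lin_map {ι : Type*} (c : List (Bool × ι)) (f : ι → (X ⟶ Y)) (f' : ι → (X' ⟶ Y'))
    (α : X ⟶ X') (β : Y ⟶ Y') (h : ∀ i, f i ≫ β = α ≫ f' i) :
    lin (c.map fun u => (u.1, f u.2)) ≫ β ▷ RR = α ▷ RR ≫ lin (c.map fun u => (u.1, f' u.2)) := by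
  apply lin_comp_whiskerRight
  rw [List.forall₂_map_left_iff, List.forall₂_map_right_iff]
  exact List.forall₂_same.mpr fun u _ => ⟨rfl, h u.2⟩

end LCnat

variable {G : Type} [Group G]

/-- Equivariant maps `X⁺ → Y⁺`. -/
def EMap (X Y : GSpace G) : Type := {f : Geo.L X ⟶ Geo.L Y // Eqv f}

namespace EMap

variable {X Y Z : GSpace G}

/-- the restriction to the fixed points -/
def fix (f : EMap X Y) (V : Subgroup G) : fixL X V ⟶ fixL Y V := fixMap f.1 f.2 V

theorem fix_ι (f : EMap X Y) (V : Subgroup G) : f.fix V ≫ fixι Y V = fixι X V ≫ f.1 :=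
  fixMap_ι f.1 f.2 V

/-- the zero map -/
def zero (X Y : GSpace G) : EMap X Y := ⟨0, eqv_zero X Y⟩

/-- the identity -/
def id (X : GSpace G) : EMap X X := ⟨𝟙 _, eqv_id X⟩

/-- composition -/
def comp (f : EMap X Y) (g : EMap Y Z) : EMap X Z := ⟨f.1 ≫ g.1, f.2.comp g.2⟩

theorem fix_zero (V : Subgroup G) : (zero X Y).fix V = 0 := fixMap_zero X Y V

theorem fix_id (V : Subgroup G) : (id X).fix V = 𝟙 _ := fixMap_id X V

theorem fix_comp (f : EMap X Y) (g : EMap Y Z) (V : Subgroup G) :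
    (f.comp g).fix V = f.fix V ≫ g.fix V := fixMap_comp f.1 f.2 g.1 g.2 V

/-- the product with a space with trivial action -/
def wr (f : EMap X Y) (B : Space) : EMap (xt X B) (xt Y B) := ⟨Geo.wr f.1 B, eqv_wr f.2 B⟩

/-- from a pointed map which is equivariant -/
def ofMap (f : Map X.und Y.und) (h : IsGMap (X := X) (Y := Y) f.toFun) : EMap X Y :=
  ⟨toHom f, (isGMap_iff (toHom f)).mp h⟩

theorem isGMap (f : EMap X Y) : IsGMap (X := X) (Y := Y) (app f.1) := (isGMap_iff f.1).mpr f.2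

end EMap

variable {X Y : GSpace G}

theorem act_lin (c : List (Bool × EMap X Y)) (g : G) :
    (act X g ▷ RR) ≫ lin (c.map fun u => (u.1, u.2.1)) =
      lin (c.map fun u => (u.1, u.2.1)) ≫ (act Y g ▷ RR) :=
  (lin_map c (fun f : EMap X Y => f.1) (fun f : EMap X Y => f.1) (act X g) (act Y g)
    (fun f => (f.2 g).symm)).symm

/-- **LIN** for `G`-spaces: the equivariant map `(X × ℝ)⁺ → (Y × ℝ)⁺` which induces the linear
combination. -/
def glin (c : List (Bool × EMap X Y)) : EMap (xt X Rr) (xt Y Rr) :=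
  ⟨(pt X Rr).inv ≫ lin (c.map fun u => (u.1, u.2.1)) ≫ (pt Y Rr).hom,
    eqv_conj (Y := Rr) (Y' := Rr) (act_lin c)⟩

theorem pt_glin (c : List (Bool × EMap X Y)) :
    (pt X Rr).hom ≫ (glin c).1 = lin (c.map fun u => (u.1, u.2.1)) ≫ (pt Y Rr).hom := by
  unfold glin
  rw [Iso.hom_inv_id_assoc]

/-- The fixed points of `glin c`. -/
theorem fixXt_glin (c : List (Bool × EMap X Y)) (V : Subgroup G) :
    (fixXt X Rr V).hom ≫ (glin c).fix V =
      lin (c.map fun u => (u.1, u.2.fix V)) ≫ (fixXt Y Rr V).hom := by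
  rw [← cancel_mono (fixι (xt Y Rr) V), Category.assoc, EMap.fix_ι, fixXt_hom_ι_assoc, pt_glin,
    Category.assoc, fixXt_hom_ι]
  have h := lin_map c (fun f : EMap X Y => f.fix V) (fun f : EMap X Y => f.1) (fixι X V)
    (fixι Y V) (fun f => f.fix_ι V)
  rw [← Category.assoc]
  refine Eq.trans (congrArg (· ≫ (pt Y Rr).hom) h.symm) ?_
  exact Category.assoc _ _ _

end Vale.Agent.P241.H241
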