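import Vale.Agent.P241.H241.Lin
import Mathlib.Algebra.MonoidAlgebra.Basic
import Mathlib.CategoryTheory.Triangulated.Pretriangulated

/-!
# P241, LIN: the effect of `lin` in a tensor triangulated category

* `exists_signs` : every element of `ℤ[Γ]` is a sum of elements of `Γ` with signs.
* `map_lin_suspIso` : `F.S.map (lin c)` is the suspension of the linear combination `comb F c`.
* `exists_dist_of_lin` : the third object of a triangle on `F.S.map (lin c)` is the suspension of
  the third object of a triangle on `comb F c`.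
* `isZero_tensor_iff_of_lin`.
-/

open CategoryTheory MonoidalCategory Limits Pretriangulated OnePoint Topology

universe v u

namespace Vale.Agent.P241.H241

open Vale.Agent.P251 Vale.Agent.P251.G Vale.Agent.P251.G.LC Vale.Agent.P251.I
open Vale.Agent.P251.T (TensorTriangulated)

/-! ### signs -/

theorem sum_map_add_left {Γ A : Type*} [AddCommMonoid A] (f : Γ → A) (n : ℕ) (b : Γ) :
    ((List.replicate n b).map f).sum = n • f b := by
  rw [List.map_replicate, List.sum_replicate]

/-- every element of `ℤ[Γ]` is a sum of elements of `Γ` with signs -/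
theorem exists_signs {Γ : Type*} (c : MonoidAlgebra ℤ Γ) :
    ∃ l : List (Bool × Γ), (l.map fun u => MonoidAlgebra.single u.2 (sg u.1)).sum = c := by
  induction c using MonoidAlgebra.induction_linear with
  | zero => exact ⟨[], rfl⟩
  | add x y hx hy =>
    obtain ⟨l, rfl⟩ := hx
    obtain ⟨l', rfl⟩ := hy
    exact ⟨l ++ l', by rw [List.map_append, List.sum_append]⟩
  | single m r =>
    rcases Int.eq_nat_or_neg r with ⟨n, rfl | rfl⟩
    · refine ⟨List.replicate n (true, m), ?_⟩
      rw [sum_map_add_left, MonoidAlgebra.smul_single]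
      simp [sg]
    · refine ⟨List.replicate n (false, m), ?_⟩
      rw [sum_map_add_left, MonoidAlgebra.smul_single]
      simp [sg]

/-- an additive map on `ℤ[Γ]`, evaluated on a list of signs -/
theorem map_signs {Γ : Type*} {A : Type*} [AddCommGroup A] (φ : MonoidAlgebra ℤ Γ →+ A)
    (l : List (Bool × Γ)) :
    φ (l.map fun u => MonoidAlgebra.single u.2 (sg u.1)).sum =
      (l.map fun u => sg u.1 • φ (MonoidAlgebra.single u.2 1)).sum := by
  rw [map_list_sum, List.map_map]
  congr 1
  apply List.map_congr_left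
  intro u _
  change φ (MonoidAlgebra.single u.2 (sg u.1)) = _
  rw [← map_zsmul]
  congr 1
  rw [MonoidAlgebra.smul_single, smul_eq_mul, mul_one]

section

variable {T : Type u} [Category.{v} T] [Preadditive T] [HasZeroObject T]
    [HasShift T ℤ] [∀ n : ℤ, (shiftFunctor T n).Additive] [Pretriangulated T]
    [MonoidalCategory T] [SymmetricCategory T] [TensorTriangulated T] (F : SpaceFunctor T)

/-- the linear combination -/
def comb {A B : T} (c : List (Bool × (A ⟶ B))) : A ⟶ B := (c.map fun u => sg u.1 • u.2).sum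

omit [HasZeroObject T] [HasShift T ℤ] [∀ n : ℤ, (shiftFunctor T n).Additive] [Pretriangulated T]
  [MonoidalCategory T] [SymmetricCategory T] [TensorTriangulated T] in
theorem comb_nil {A B : T} : comb ([] : List (Bool × (A ⟶ B))) = 0 := rfl

omit [HasZeroObject T] [HasShift T ℤ] [∀ n : ℤ, (shiftFunctor T n).Additive] [Pretriangulated T]
  [MonoidalCategory T] [SymmetricCategory T] [TensorTriangulated T] in
theorem comb_cons {A B : T} (u : Bool × (A ⟶ B)) (c : List (Bool × (A ⟶ B))) :
    comb (u :: c) = sg u.1 • u.2 + comb c := rfl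

omit [HasZeroObject T] [HasShift T ℤ] [∀ n : ℤ, (shiftFunctor T n).Additive] [Pretriangulated T]
  [MonoidalCategory T] [SymmetricCategory T] [TensorTriangulated T] in
/-- the difference of two morphisms -/
theorem comb_sub {A B : T} (f g : A ⟶ B) : comb [(true, f), (false, g)] = f - g := by
  rw [comb_cons, comb_cons, comb_nil, add_zero]
  change (1 : ℤ) • f + (-1 : ℤ) • g = f - g
  rw [one_smul, neg_one_zsmul, sub_eq_add_neg]

/-- The linear combination of the morphisms induced by a list of maps. -/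
abbrev combS {X Y : FCat} (c : List (Bool × (X ⟶ Y))) : F.S.obj X ⟶ F.S.obj Y :=
  comb (c.map fun u => (u.1, F.S.map u.2))

theorem combS_nil {X Y : FCat} : combS F ([] : List (Bool × (X ⟶ Y))) = 0 := rfl

theorem combS_cons {X Y : FCat} (u : Bool × (X ⟶ Y)) (c : List (Bool × (X ⟶ Y))) :
    combS F (u :: c) = sg u.1 • F.S.map u.2 + combS F c := rfl

/-- `lin c` as a morphism of `FCat` -/
noncomputable abbrev linF {X Y : FCat} (c : List (Bool × (X ⟶ Y))) : X ⊗ RRF ⟶ Y ⊗ RRF :=
  FCat.hom (lin (c.map fun u => (u.1, u.2.hom)))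

@[reassoc]
theorem map_linF_suspIso {X Y : FCat} (c : List (Bool × (X ⟶ Y))) :
    F.S.map (linF c) ≫ (F.suspIso Y).hom = (F.suspIso X).hom ≫ (combS F c)⟦(1 : ℤ)⟧' := by
  rw [linF, map_lin]
  induction c with
  | nil =>
    simp [combS_nil]
  | cons u c ih =>
    rw [List.map_cons, List.sum_cons, Preadditive.add_comp, ih, combS_cons, Functor.map_add, Preadditive.comp_add, Preadditive.zsmul_comp, F.suspIso_naturality,
      Functor.map_zsmul, Preadditive.comp_zsmul]

/-- `F.S.map (lin c)` in terms of the monoidal structure -/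
theorem map_linF_μ {X Y : FCat} (c : List (Bool × (X ⟶ Y))) :
    F.S.map (linF c) = (Functor.Monoidal.μIso F.S X RRF).inv ≫ (combS F c ▷ F.S.obj RRF) ≫
      (Functor.Monoidal.μIso F.S Y RRF).hom := by
  rw [linF, map_lin]
  induction c with
  | nil =>
    have h : (0 : F.S.obj X ⟶ F.S.obj Y) ▷ F.S.obj RRF = 0 :=
      (tensorRight (F.S.obj RRF)).map_zero _ _
    simp [combS_nil, h]
  | cons u c ih =>
    have h : (sg u.1 • F.S.map u.2 + combS F c) ▷ F.S.obj RRF =
        sg u.1 • (F.S.map u.2 ▷ F.S.obj RRF) + combS F c ▷ F.S.obj RRF := by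
      refine ((tensorRight (F.S.obj RRF)).map_add).trans ?_
      refine congrArg (· + _) ?_
      exact (tensorRight (F.S.obj RRF)).map_zsmul
    have h2 : F.S.map (u.2 ▷ RRF) = (Functor.Monoidal.μIso F.S X RRF).inv ≫
        (F.S.map u.2 ▷ F.S.obj RRF) ≫ (Functor.Monoidal.μIso F.S Y RRF).hom :=
      Functor.Monoidal.map_whiskerRight _ _ _
    rw [List.map_cons, List.sum_cons, ih, combS_cons, h, Preadditive.add_comp, Preadditive.comp_add, Preadditive.zsmul_comp,
      Preadditive.comp_zsmul, h2]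

/-- The third object of a triangle on `F.S.map (lin c)` is the suspension of the third object of a
triangle on the linear combination. -/
theorem exists_dist_of_lin {X Y : FCat} (c : List (Bool × (X ⟶ Y))) {C : T}
    {g : F.S.obj (Y ⊗ RRF) ⟶ C} {h : C ⟶ (F.S.obj (X ⊗ RRF))⟦(1 : ℤ)⟧}
    (hT : Triangle.mk (F.S.map (linF c)) g h ∈ distTriang T) :
    ∃ (C' : T) (g' : F.S.obj Y ⟶ C') (h' : C' ⟶ (F.S.obj X)⟦(1 : ℤ)⟧),
      Triangle.mk (combS F c) g' h' ∈ distTriang T ∧ Nonempty (C ≅ C'⟦(1 : ℤ)⟧) := by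
  obtain ⟨C', g', h', hT'⟩ := distinguished_cocone_triangle (combS F c)
  refine ⟨C', g', h', hT', ?_⟩
  have hs := Triangle.shift_distinguished _ hT' 1
  let e₁ := F.suspIso X
  let e₂ : F.S.obj (Y ⊗ RRF) ≅ (F.S.obj Y)⟦(1 : ℤ)⟧ :=
    { hom := -(F.suspIso Y).hom
      inv := -(F.suspIso Y).inv
      hom_inv_id := by simp
      inv_hom_id := by simp }
  have comm : F.S.map (linF c) ≫ e₂.hom = e₁.hom ≫ ((1 : ℤ).negOnePow • (combS F c)⟦(1 : ℤ)⟧') := by
    change F.S.map (linF c) ≫ (-(F.suspIso Y).hom) = _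
    rw [Preadditive.comp_neg, map_linF_suspIso, Int.negOnePow_one]
    simp [e₁]
  exact ⟨Triangle.π₃.mapIso (isoTriangleOfIso₁₂ _ _ hT hs e₁ e₂ comm)⟩

/-- `K ⊗ -` detects: the third object of a triangle is killed by `K` iff `K ◁ f` is invertible. -/
theorem isZero_tensor_iff {A B C : T} {f : A ⟶ B} {g : B ⟶ C} {h : C ⟶ A⟦(1 : ℤ)⟧}
    (hT : Triangle.mk f g h ∈ distTriang T) (K : T) : IsZero (K ⊗ C) ↔ IsIso (K ◁ f) :=
  Triangle.isZero₃_iff_isIso₁ _ (TensorTriangulated.distinguished K _ hT)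

theorem isZero_tensor_shift_iff (K C : T) : IsZero (K ⊗ C⟦(1 : ℤ)⟧) ↔ IsZero (K ⊗ C) := by
  let e : K ⊗ C⟦(1 : ℤ)⟧ ≅ (K ⊗ C)⟦(1 : ℤ)⟧ :=
    whiskerLeftIso K (TensorTriangulated.e C).symm ≪≫ (α_ K C _).symm ≪≫
      TensorTriangulated.e (K ⊗ C)
  rw [e.isZero_iff, IsZero.iff_id_eq_zero, IsZero.iff_id_eq_zero,
    ← CategoryTheory.Functor.map_id]
  exact Functor.map_eq_zero_iff (shiftFunctor T (1 : ℤ))

/-- **Output of LIN.** `K` kills the third object of a triangle on `F.S.map (lin c)` iff `K ◁ -` of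
the linear combination is invertible. -/
theorem isZero_tensor_iff_of_lin {X Y : FCat} (c : List (Bool × (X ⟶ Y))) {C : T}
    {g : F.S.obj (Y ⊗ RRF) ⟶ C} {h : C ⟶ (F.S.obj (X ⊗ RRF))⟦(1 : ℤ)⟧}
    (hT : Triangle.mk (F.S.map (linF c)) g h ∈ distTriang T) (K : T) :
    IsZero (K ⊗ C) ↔ IsIso (K ◁ combS F c) := by
  obtain ⟨C', g', h', hT', ⟨e⟩⟩ := exists_dist_of_lin F c hT
  rw [(whiskerLeftIso K e).isZero_iff, isZero_tensor_shift_iff, isZero_tensor_iff hT']

end

end Vale.Agent.P241.H241
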