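import Vale.Agent.P251.I.CofTriangle
import Vale.Agent.P251.H.LCone

/-!
# P241, LIN: sums of pointed maps with one line coordinate

* `join f g h` : the map which is `f` resp. `g` on the supports, for maps `f g : X⁺ → Y⁺` with
  disjoint supports; `SpaceFunctor.map_join` : it induces the sum.
* `addL f g` : the sum of `f g : X ⊗ RR ⟶ Z` by means of the pinch of the line.
* `lin L` : for a list `L` of pairs of a sign and a map `X ⟶ Y`, the map `X ⊗ RR ⟶ Y ⊗ RR` which
  induces the sum with signs (`map_lin`).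

Everything is natural on the nose (`app_join`, `app_addL`, `app_lin_cons`).
-/

open CategoryTheory MonoidalCategory Limits Pretriangulated OnePoint Topology

universe v u

namespace Vale.Agent.P241.H241

open Vale.Agent.P251 Vale.Agent.P251.G Vale.Agent.P251.G.LC Vale.Agent.P251.I
open Vale.Agent.P251.T (TensorTriangulated)

section wedge

variable {X Y : LC}

theorem app_sumDesc_inl {Z : LC} (f : X ⟶ Z) (g : Y ⟶ Z) (x : OnePoint X) :
    app (sumDesc f g) (app (sumInl X Y) x) = app f x := by
  rw [← app_comp, sumInl_desc]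

theorem app_sumDesc_inr {Z : LC} (f : X ⟶ Z) (g : Y ⟶ Z) (y : OnePoint Y) :
    app (sumDesc f g) (app (sumInr X Y) y) = app g y := by
  rw [← app_comp, sumInr_desc]

theorem isClosed_app_infty (f : X ⟶ Y) : IsClosed {x : OnePoint X | app f x = ∞} :=
  isClosed_singleton.preimage (continuous_app f)

open scoped Classical in
/-- The function which is `f` or `g` on the supports. -/
noncomputable def joinFun {A B : Type} (f g : A → OnePoint B) (x : A) : OnePoint B :=
  if g x = ∞ then f x else g x

theorem joinFun_of_right {A B : Type} {f g : A → OnePoint B} {x : A} (h : g x = ∞) :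
    joinFun f g x = f x := if_pos h

theorem joinFun_of_left {A B : Type} {f g : A → OnePoint B} {x : A} (h : f x = ∞) :
    joinFun f g x = g x := by
  unfold joinFun
  split_ifs with h'
  · rw [h, h']
  · rfl

/-- composition with an arbitrary function which preserves the base point -/
theorem comp_joinFun {A B C : Type} (u : OnePoint B → OnePoint C) (hu : u ∞ = ∞)
    (f g : A → OnePoint B) (h : ∀ x, f x = ∞ ∨ g x = ∞) (x : A) :
    u (joinFun f g x) = joinFun (fun x => u (f x)) (fun x => u (g x)) x := by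
  rcases h x with h | h
  · rw [joinFun_of_left h, joinFun_of_left (by rw [h, hu])]
  · rw [joinFun_of_right h, joinFun_of_right (by rw [h, hu])]

theorem continuous_joinFun {A : Type} [TopologicalSpace A] {B : Type} [TopologicalSpace B]
    [T1Space (OnePoint B)] {f g : A → OnePoint B} (hf : Continuous f) (hg : Continuous g)
    (h : ∀ x, f x = ∞ ∨ g x = ∞) : Continuous (joinFun f g) := by
  have h1 : IsClosed {x : A | f x = ∞} := isClosed_singleton.preimage hf
  have h2 : IsClosed {x : A | g x = ∞} := isClosed_singleton.preimage hg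
  have c1 : ContinuousOn (joinFun f g) {x : A | f x = ∞} :=
    hg.continuousOn.congr fun x hx => joinFun_of_left hx
  have c2 : ContinuousOn (joinFun f g) {x : A | g x = ∞} :=
    hf.continuousOn.congr fun x hx => joinFun_of_right hx
  have hu : {x : A | f x = ∞} ∪ {x : A | g x = ∞} = Set.univ := by
    ext x
    simpa using h x
  rw [← continuousOn_univ, ← hu]
  exact c1.union_of_isClosed c2 h1 h2

/-- The morphism which is `f` or `g` on the supports. -/
noncomputable def join (f g : X ⟶ Y) (h : ∀ x, app f x = ∞ ∨ app g x = ∞) : X ⟶ Y :=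
  homMk (joinFun (app f) (app g))
    (continuous_joinFun (continuous_app f) (continuous_app g) h)
    (by rw [joinFun_of_right (app_infty g), app_infty])

theorem app_join (f g : X ⟶ Y) (h : ∀ x, app f x = ∞ ∨ app g x = ∞) (x : OnePoint X) :
    app (join f g h) x = joinFun (app f) (app g) x := rfl

/-- the morphism to the disjoint union given by two morphisms with disjoint supports -/
noncomputable def split (f g : X ⟶ Y) (h : ∀ x, app f x = ∞ ∨ app g x = ∞) : X ⟶ sum Y Y :=
  join (f ≫ sumInl Y Y) (g ≫ sumInr Y Y) (fun x => by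
    rw [app_comp, app_comp]
    rcases h x with h | h
    · left; rw [h, app_infty]
    · right; rw [h, app_infty])

theorem split_desc (f g : X ⟶ Y) (h : ∀ x, app f x = ∞ ∨ app g x = ∞) {Z : LC} (a b : Y ⟶ Z) :
    split f g h ≫ sumDesc a b = join (f ≫ a) (g ≫ b) (fun x => by
      rw [app_comp, app_comp]
      rcases h x with h | h
      · left; rw [h, app_infty]
      · right; rw [h, app_infty]) := by
  apply app_ext
  intro x
  rw [app_comp, app_join, split, app_join]
  rcases h x with h | h
  · rw [joinFun_of_left (by rw [app_comp, h, app_infty]),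
      joinFun_of_left (by rw [app_comp, h, app_infty]), app_comp, app_sumDesc_inr, app_comp]
  · rw [joinFun_of_right (by rw [app_comp, h, app_infty]),
      joinFun_of_right (by rw [app_comp, h, app_infty]), app_comp, app_sumDesc_inl, app_comp]

theorem join_zero (f : X ⟶ Y) (h : ∀ x, app f x = ∞ ∨ app (0 : X ⟶ Y) x = ∞) :
    join f 0 h = f := by
  apply app_ext
  intro x
  rw [app_join, joinFun_of_right (app_zero _)]

theorem zero_join (f : X ⟶ Y) (h : ∀ x, app (0 : X ⟶ Y) x = ∞ ∨ app f x = ∞) :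
    join 0 f h = f := by
  apply app_ext
  intro x
  rw [app_join, joinFun_of_left (app_zero _)]

end wedge

section line

/-- the collapse of the line onto its left part, homotopic to the identity -/
noncomputable def lineL : RR ⟶ RR := cat (𝟙 RR) 0

/-- the collapse of the line onto its right part, homotopic to the identity -/
noncomputable def lineR : RR ⟶ RR := cat 0 (𝟙 RR)

theorem homotopic_lineL : Homotopic lineL (𝟙 RR) := cat_zero _

theorem homotopic_lineR : Homotopic lineR (𝟙 RR) := zero_cat _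

theorem line_disj (s : OnePoint ℝ) : app lineL s = ∞ ∨ app lineR s = ∞ := by
  induction s using OnePoint.rec with
  | infty => exact Or.inl (app_infty _)
  | coe x =>
    unfold lineL lineR cat
    rw [app_ofLoop_coe, app_ofLoop_coe, Path.trans_apply, Path.trans_apply]
    split_ifs with h
    · right; rfl
    · left; rfl

theorem cat_eq_join {Z : LC} (u w : RR ⟶ Z) (h : ∀ x, app (lineL ≫ u) x = ∞ ∨
    app (lineR ≫ w) x = ∞) : join (lineL ≫ u) (lineR ≫ w) h = cat u w := by
  have hL : lineL ≫ u = cat u 0 := by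
    unfold lineL
    rw [cat_comp, Category.id_comp, zero_comp]
  have hR : lineR ≫ w = cat 0 w := by
    unfold lineR
    rw [cat_comp, Category.id_comp, zero_comp]
  apply app_ext
  intro s
  induction s using OnePoint.rec with
  | infty => rw [app_infty, app_infty]
  | coe x =>
    by_cases hx : (unitInterval.sigmoid x : ℝ) ≤ 1 / 2
    · have h2 : app (lineR ≫ w) (x : OnePoint ℝ) = ∞ := by
        rw [hR]
        unfold cat
        rw [app_ofLoop_coe, Path.trans_apply, dif_pos hx]
        rfl
      rw [app_join, joinFun_of_right h2, hL]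
      unfold cat
      rw [app_ofLoop_coe, app_ofLoop_coe, Path.trans_apply, Path.trans_apply, dif_pos hx,
        dif_pos hx]
    · have h2 : app (lineL ≫ u) (x : OnePoint ℝ) = ∞ := by
        rw [hL]
        unfold cat
        rw [app_ofLoop_coe, Path.trans_apply, dif_neg hx]
        rfl
      rw [app_join, joinFun_of_left h2, hR]
      unfold cat
      rw [app_ofLoop_coe, app_ofLoop_coe, Path.trans_apply, Path.trans_apply, dif_neg hx,
        dif_neg hx]

variable {X Y Z : LC}

theorem addL_disj (f g : X ⊗ RR ⟶ Z) (z : OnePoint (X ⊗ RR : LC)) :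
    app (X ◁ lineL ≫ f) z = ∞ ∨ app (X ◁ lineR ≫ g) z = ∞ := by
  obtain ⟨x, s, rfl⟩ := exists_smash z
  rw [app_comp, app_comp, app_whiskerLeft_smash, app_whiskerLeft_smash]
  rcases line_disj s with h | h
  · left
    rw [h, smash_infty_right]
    exact app_infty f
  · right
    rw [h, smash_infty_right]
    exact app_infty g

/-- The sum of two morphisms out of `X ⊗ RR`. -/
noncomputable def addL (f g : X ⊗ RR ⟶ Z) : X ⊗ RR ⟶ Z :=
  join (X ◁ lineL ≫ f) (X ◁ lineR ≫ g) (addL_disj f g)

theorem app_addL (f g : X ⊗ RR ⟶ Z) (x : OnePoint X) (s : OnePoint ℝ) :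
    app (addL f g) (LC.smash x s) = joinFun (fun s => app f (LC.smash x (app lineL s)))
      (fun s => app g (LC.smash x (app lineR s))) s := by
  have h1 : app (X ◁ lineL ≫ f) (LC.smash x s) = app f (LC.smash x (app lineL s)) := by
    rw [app_comp, app_whiskerLeft_smash]
  have h2 : app (X ◁ lineR ≫ g) (LC.smash x s) = app g (LC.smash x (app lineR s)) := by
    rw [app_comp, app_whiskerLeft_smash]
  unfold addL
  rw [app_join]
  unfold joinFun
  rw [h1, h2]

end line

section lin

/-- the identity or the reflection of the line -/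
noncomputable def sgnR (e : Bool) : RR ⟶ RR := if e then 𝟙 RR else neg

variable {X Y : LC}

/-- The linear combination (with signs `true = +`, `false = -`) of a list of morphisms, after
`⊗ RR`. -/
noncomputable def lin : List (Bool × (X ⟶ Y)) → (X ⊗ RR ⟶ Y ⊗ RR)
  | [] => 0
  | (e, f) :: L => addL (f ⊗ₘ sgnR e) (lin L)

@[simp] theorem lin_nil : lin ([] : List (Bool × (X ⟶ Y))) = 0 := rfl

theorem lin_cons (e : Bool) (f : X ⟶ Y) (L : List (Bool × (X ⟶ Y))) :
    lin ((e, f) :: L) = addL (f ⊗ₘ sgnR e) (lin L) := rfl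

theorem app_lin_cons (e : Bool) (f : X ⟶ Y) (L : List (Bool × (X ⟶ Y))) (x : OnePoint X)
    (s : OnePoint ℝ) : app (lin ((e, f) :: L)) (LC.smash x s) =
      joinFun (fun s => LC.smash (app f x) (app (sgnR e) (app lineL s)))
        (fun s => app (lin L) (LC.smash x (app lineR s))) s := by
  have h : app (f ⊗ₘ sgnR e) (LC.smash x (app lineL s)) =
      LC.smash (app f x) (app (sgnR e) (app lineL s)) := app_tensorHom_smash _ _ _ _
  rw [lin_cons, app_addL]
  unfold joinFun
  simp only [h]

/-- Naturality of `lin` in the target and the source, along maps which commute with the summands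
pointwise. -/
theorem lin_natural {X' Y' : LC} (a : OnePoint X → OnePoint X') (b : OnePoint Y → OnePoint Y')
    (L : List (Bool × (X ⟶ Y))) (L' : List (Bool × (X' ⟶ Y')))
    (h : List.Forall₂ (fun u v => u.1 = v.1 ∧ ∀ x, b (app u.2 x) = app v.2 (a x)) L L')
    (x : OnePoint X) (s : OnePoint ℝ) :
    ∃ (y : OnePoint Y) (t : OnePoint ℝ), app (lin L) (LC.smash x s) = LC.smash y t ∧
      app (lin L') (LC.smash (a x) s) = LC.smash (b y) t := by
  induction h generalizing s with
  | nil =>
    refine ⟨∞, ∞, ?_, ?_⟩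
    · rw [lin_nil, app_zero]; rfl
    · rw [lin_nil, app_zero, smash_infty_right]
  | @cons u v L L' huv _ ih =>
    obtain ⟨e, f⟩ := u
    obtain ⟨e', f'⟩ := v
    obtain ⟨he, hf⟩ := huv
    dsimp only at he hf
    subst he
    rw [app_lin_cons, app_lin_cons]
    rcases line_disj s with hs | hs
    · have h1 : LC.smash (app f x) (app (sgnR e) (app lineL s)) = ∞ := by
        rw [hs, app_infty, smash_infty_right]
      have h2 : LC.smash (app f' (a x)) (app (sgnR e) (app lineL s)) = ∞ := by
        rw [hs, app_infty, smash_infty_right]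
      rw [joinFun_of_left (f := fun s => LC.smash (app f x) (app (sgnR e) (app lineL s))) h1,
        joinFun_of_left (f := fun s => LC.smash (app f' (a x)) (app (sgnR e) (app lineL s))) h2]
      exact ih (app lineR s)
    · have h1 : app (lin L) (LC.smash x (app lineR s)) = ∞ := by
        rw [hs, smash_infty_right]; exact app_infty _
      have h2 : app (lin L') (LC.smash (a x) (app lineR s)) = ∞ := by
        rw [hs, smash_infty_right]; exact app_infty _
      rw [joinFun_of_right (g := fun s => app (lin L) (LC.smash x (app lineR s))) h1,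
        joinFun_of_right (g := fun s => app (lin L') (LC.smash (a x) (app lineR s))) h2]
      exact ⟨_, _, rfl, by rw [hf]⟩

end lin

section spaceFunctor

variable {T : Type u} [Category.{v} T] [Preadditive T] [HasZeroObject T]
    [HasShift T ℤ] [∀ n : ℤ, (shiftFunctor T n).Additive] [Pretriangulated T]
    [MonoidalCategory T] [SymmetricCategory T] [TensorTriangulated T] (F : SpaceFunctor T)

/-- A map to a disjoint union, followed by `sumDesc a b`. -/
theorem map_split {X Y Z : FCat} (f g : X.obj ⟶ Y.obj) (h : ∀ x, app f x = ∞ ∨ app g x = ∞)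
    (a b : Y ⟶ Z) :
    F.S.map (FCat.hom (split f g h ≫ sumDesc a.hom b.hom) : X ⟶ Z) =
      F.S.map (FCat.hom f : X ⟶ Y) ≫ F.S.map a + F.S.map (FCat.hom g : X ⟶ Y) ≫ F.S.map b := by
  have e0 : (FCat.hom (split f g h ≫ sumDesc a.hom b.hom) : X ⟶ Z) =
      (FCat.hom (split f g h) : X ⟶ sumF Y Y) ≫ descF a b := rfl
  have e1 : (FCat.hom (split f g h) : X ⟶ sumF Y Y) ≫ descF (𝟙 Y) (FCat.hom 0) =
      (FCat.hom f : X ⟶ Y) := by
    ext1
    change split f g h ≫ sumDesc (𝟙 Y.obj) (0 : Y.obj ⟶ Y.obj) = f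
    rw [split_desc]
    apply app_ext
    intro x
    rw [app_join, comp_zero, joinFun_of_right (app_zero _), Category.comp_id]
  have e2 : (FCat.hom (split f g h) : X ⟶ sumF Y Y) ≫ descF (FCat.hom 0) (𝟙 Y) =
      (FCat.hom g : X ⟶ Y) := by
    ext1
    change split f g h ≫ sumDesc (0 : Y.obj ⟶ Y.obj) (𝟙 Y.obj) = g
    rw [split_desc]
    apply app_ext
    intro x
    rw [app_join, comp_zero, joinFun_of_left (app_zero _), Category.comp_id]
  have i1 : F.S.map (inlF Y Y) ≫ F.S.map (descF a b) = F.S.map a := by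
    rw [← Functor.map_comp, inlF_descF]
  have i2 : F.S.map (inrF Y Y) ≫ F.S.map (descF a b) = F.S.map b := by
    rw [← Functor.map_comp, inrF_descF]
  rw [e0, Functor.map_comp, ← Category.id_comp (F.S.map (descF a b)), ← F.sum_total Y Y,
    Preadditive.add_comp, Preadditive.comp_add, Category.assoc, Category.assoc, i1, i2,
    ← Functor.map_comp_assoc, ← Functor.map_comp_assoc, e1, e2]

theorem map_join {X Y : FCat} (f g : X.obj ⟶ Y.obj) (h : ∀ x, app f x = ∞ ∨ app g x = ∞) :
    F.S.map (FCat.hom (join f g h) : X ⟶ Y) =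
      F.S.map (FCat.hom f : X ⟶ Y) + F.S.map (FCat.hom g : X ⟶ Y) := by
  have e := map_split F f g h (𝟙 Y) (𝟙 Y)
  rw [CategoryTheory.Functor.map_id, Category.comp_id, Category.comp_id] at e
  rw [← e]
  congr 2
  change join f g h = split f g h ≫ sumDesc (𝟙 Y.obj) (𝟙 Y.obj)
  rw [split_desc]
  apply app_ext
  intro x
  rw [app_join, app_join, Category.comp_id, Category.comp_id]

theorem map_whiskerLeft_lineL (X : FCat) :
    F.S.map (FCat.hom (X.obj ◁ lineL) : X ⊗ RRF ⟶ X ⊗ RRF) = 𝟙 _ := by
  rw [← CategoryTheory.Functor.map_id]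
  refine F.map_eq _ _ ?_
  change Homotopic (X.obj ◁ lineL) (𝟙 (X.obj ⊗ RR))
  rw [← MonoidalCategory.whiskerLeft_id]
  exact homotopic_lineL.whiskerLeft X.obj

theorem map_whiskerLeft_lineR (X : FCat) :
    F.S.map (FCat.hom (X.obj ◁ lineR) : X ⊗ RRF ⟶ X ⊗ RRF) = 𝟙 _ := by
  rw [← CategoryTheory.Functor.map_id]
  refine F.map_eq _ _ ?_
  change Homotopic (X.obj ◁ lineR) (𝟙 (X.obj ⊗ RR))
  rw [← MonoidalCategory.whiskerLeft_id]
  exact homotopic_lineR.whiskerLeft X.obj

/-- `addL` induces the sum. -/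
theorem map_addL {X Z : FCat} (f g : X ⊗ RRF ⟶ Z) :
    F.S.map (FCat.hom (addL f.hom g.hom) : X ⊗ RRF ⟶ Z) = F.S.map f + F.S.map g := by
  unfold addL
  have e1 : (FCat.hom (X.obj ◁ lineL ≫ f.hom) : X ⊗ RRF ⟶ Z) =
      (FCat.hom (X.obj ◁ lineL) : X ⊗ RRF ⟶ X ⊗ RRF) ≫ f := rfl
  have e2 : (FCat.hom (X.obj ◁ lineR ≫ g.hom) : X ⊗ RRF ⟶ Z) =
      (FCat.hom (X.obj ◁ lineR) : X ⊗ RRF ⟶ X ⊗ RRF) ≫ g := rfl
  have e := map_join F (X := X ⊗ RRF) (Y := Z) (X.obj ◁ lineL ≫ f.hom) (X.obj ◁ lineR ≫ g.hom)
    (addL_disj f.hom g.hom)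
  rw [e1, e2, Functor.map_comp, Functor.map_comp, map_whiskerLeft_lineL, map_whiskerLeft_lineR,
    Category.id_comp, Category.id_comp] at e
  exact e

/-- The reflection of the line induces `-1`. -/
theorem map_neg : F.S.map (FCat.hom neg : RRF ⟶ RRF) = -𝟙 _ := by
  have h0 : F.S.map (FCat.hom (cat (rev (𝟙 RR)) (𝟙 RR)) : RRF ⟶ RRF) = 0 :=
    F.map_eq_zero _ (rev_cat _)
  have hd : ∀ x, app lineL x = ∞ ∨ app lineR x = ∞ := line_disj
  have h1 := map_split F (X := RRF) (Y := RRF) (Z := RRF) lineL lineR hd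
    (FCat.hom (rev (𝟙 RR))) (𝟙 RRF)
  have h2 : F.S.map (FCat.hom lineL : RRF ⟶ RRF) = 𝟙 _ := by
    rw [← CategoryTheory.Functor.map_id]
    exact F.map_eq _ _ homotopic_lineL
  have h3 : F.S.map (FCat.hom lineR : RRF ⟶ RRF) = 𝟙 _ := by
    rw [← CategoryTheory.Functor.map_id]
    exact F.map_eq _ _ homotopic_lineR
  have h4 : split lineL lineR hd ≫ sumDesc (rev (𝟙 RR)) (𝟙 RR) =
      cat (rev (𝟙 RR)) (𝟙 RR) := by
    rw [split_desc, cat_eq_join]
  have h5 : (FCat.hom neg : RRF ⟶ RRF) = FCat.hom (rev (𝟙 RR)) := by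
    rw [← neg_comp, Category.comp_id]
  rw [h2, h3, Category.id_comp, Category.id_comp, CategoryTheory.Functor.map_id] at h1
  change F.S.map (FCat.hom (split lineL lineR hd ≫ sumDesc (rev (𝟙 RR)) (𝟙 RR)) :
    RRF ⟶ RRF) = _ at h1
  rw [h4, h0] at h1
  rw [h5]
  exact eq_neg_of_add_eq_zero_left h1.symm

/-- the sign of a boolean -/
def sg (e : Bool) : ℤ := if e then 1 else -1

theorem map_tensor_sgnR {X Y : FCat} (f : X ⟶ Y) (e : Bool) :
    F.S.map (FCat.hom (f.hom ⊗ₘ sgnR e) : X ⊗ RRF ⟶ Y ⊗ RRF) = sg e • F.S.map (f ▷ RRF) := by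
  cases e with
  | true =>
    have : (FCat.hom (f.hom ⊗ₘ sgnR true) : X ⊗ RRF ⟶ Y ⊗ RRF) = f ▷ RRF := by
      ext1
      change f.hom ⊗ₘ 𝟙 RR = f.hom ▷ RR
      rw [tensorHom_id]
    rw [this]
    exact (one_smul ℤ _).symm
  | false =>
    have e1 : (FCat.hom (f.hom ⊗ₘ sgnR false) : X ⊗ RRF ⟶ Y ⊗ RRF) =
        f ▷ RRF ≫ Y ◁ (FCat.hom neg : RRF ⟶ RRF) := by
      ext1
      change f.hom ⊗ₘ neg = f.hom ▷ RR ≫ Y.obj ◁ neg
      rw [MonoidalCategory.tensorHom_def]
    have e2 : F.S.map (Y ◁ (FCat.hom neg : RRF ⟶ RRF)) = -𝟙 _ := by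
      have hn : F.S.obj Y ◁ (-𝟙 (F.S.obj RRF)) = -(F.S.obj Y ◁ 𝟙 (F.S.obj RRF)) :=
        (tensorLeft (F.S.obj Y)).map_neg (f := 𝟙 (F.S.obj RRF))
      rw [Functor.Monoidal.map_whiskerLeft, map_neg, hn, MonoidalCategory.whiskerLeft_id, Preadditive.neg_comp, Category.id_comp,
        Preadditive.comp_neg, Functor.Monoidal.δ_μ]
    rw [e1, Functor.map_comp, e2, Preadditive.comp_neg, Category.comp_id]
    exact (neg_one_zsmul _).symm

/-- **LIN**: `lin L` induces the linear combination. -/
theorem map_lin {X Y : FCat} (L : List (Bool × (X ⟶ Y))) :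
    F.S.map (FCat.hom (lin (L.map fun u => (u.1, u.2.hom))) : X ⊗ RRF ⟶ Y ⊗ RRF) =
      (L.map fun u => sg u.1 • F.S.map (u.2 ▷ RRF)).sum := by
  induction L with
  | nil =>
    rw [List.map_nil, List.map_nil, List.sum_nil]
    exact F.map_zero _ rfl
  | cons u L ih =>
    obtain ⟨e, f⟩ := u
    rw [List.map_cons, List.map_cons, List.sum_cons, ← ih, ← map_tensor_sgnR]
    exact map_addL F (X := X) (Z := Y ⊗ RRF) (FCat.hom (f.hom ⊗ₘ sgnR e))
      (FCat.hom (lin (L.map fun u => (u.1, u.2.hom))))

end spaceFunctor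

end Vale.Agent.P241.H241
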