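import Vale.Agent.P241.H132.Stage
import Vale.Agent.P241.R.TSide

/-!
# P241, block YG: the output of the Young step in `T`, in the form of the geometric side

`H132.RkLe`, `H132.EvGe` (geometric middle) versus `R.HasRk` (statements of the blocks in `T`).
-/

open CategoryTheory MonoidalCategory Limits Pretriangulated
open Vale.Agent.P251.St Vale.Agent.P251.St.SHCat Vale.Agent.P241.St
open Vale.Agent.P251.T

noncomputable section

namespace Vale.Agent.P241.H241

variable {T : SHCat}

theorem ev_add_od {K X : T.C} [MonObj K] {ι : Type} [Fintype ι] (b : KR.KBasis K X ι) :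
    b.ev + b.od = Fintype.card ι := by
  classical
  unfold KR.KBasis.ev KR.KBasis.od
  rw [Nat.card_eq_fintype_card, Nat.card_eq_fintype_card, Fintype.card_subtype,
    Fintype.card_subtype]
  have h : (Finset.univ.filter fun i => Odd (b.e i)) =
      Finset.univ.filter fun i => ¬ Even (b.e i) := by
    ext i
    simp
  rw [h, Finset.card_filter_add_card_filter_not, Finset.card_univ]

theorem hasRk_of_rkLe {K : RingA T} {X : T.C} {n : ℕ} (h : H132.RkLe K X n) :
    ∃ e o : ℕ, R.HasRk K X e o ∧ e + o ≤ n := by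
  obtain ⟨m, b, hm⟩ := h
  refine ⟨b.ev, b.od, ⟨Fin m, inferInstance, b, rfl, rfl⟩, ?_⟩
  rw [ev_add_od, Fintype.card_fin]
  exact hm

theorem hasRk_of_evGe {K : RingA T} {X : T.C} {n : ℕ} (h : H132.EvGe K X n) :
    ∃ e o : ℕ, R.HasRk K X e o ∧ n ≤ e := by
  obtain ⟨m, b, hm⟩ := h
  exact ⟨b.ev, b.od, ⟨Fin m, inferInstance, b, rfl, rfl⟩, hm⟩

variable {S : Susp T} {p : ℕ}

/-- The output of block YOUNG in the form of `H132.YoungG`. -/
theorem young_out (hY : R.YoungStmt S p) {n : ℕ} {K : RingA T} (hK : IsMoravaK S p n K)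
    {P : Space} (hP : FC P) (r : ℕ) {Z : T.C} {g : _ ⟶ Z} {h : Z ⟶ _}
    (hT : Triangle.mk (R.youngMap p r (S.obj P)) g h ∈ distTriang T.C) :
    (∀ ε, 2 * ε + 1 ≤ r → H132.RkLe K (S.obj P) ε → Acyclic K.obj Z) ∧
      (H132.EvGe K (S.obj P) r → ¬ Acyclic K.obj Z) := by
  constructor
  · intro ε hε hr
    obtain ⟨e, o, heo, hle⟩ := hasRk_of_rkLe hr
    exact (hY n K hK P hP e o heo r Z g h hT).1 (by omega)
  · intro hr
    obtain ⟨e, o, heo, hle⟩ := hasRk_of_evGe hr
    exact (hY n K hK P hP e o heo r Z g h hT).2 hle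

end Vale.Agent.P241.H241
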